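import Vale.Agent.P042.Main

namespace Vale.Agent.Results.P042.Lower

theorem result : ∃ c : ℝ, 0 < c ∧ ∀ N : ℕ, 1 ≤ N → ∃ A : Finset ℕ, A ⊆ Finset.Icc 1 N ∧
    (∀ a ∈ A, ∀ b ∈ A, ∀ n : ℕ, 1 ≤ n → (a : ℤ) - (b : ℤ) ≠ (n : ℤ) ^ 2) ∧
    c * (N : ℝ) ^ (34 / 45 : ℝ) ≤ A.card :=
  Vale.Agent.P042.main

end Vale.Agent.Results.P042.Lower
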