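import Vale.Agent.P042.OB

namespace Vale.Agent.Results.P042.Odd

open Polynomial

/-- Power saving for polynomials that are odd about an integer point `b`. -/
theorem result (h : ℤ[X]) (hk : 2 ≤ h.natDegree) (hc : 0 < h.leadingCoeff) (b : ℤ)
    (ho : ∀ x : ℤ, h.eval (b - x) = - h.eval (b + x)) :
    ∃ c C : ℝ, 0 < c ∧ ∀ (N : ℕ) (A : Finset ℤ), A ⊆ Finset.Icc 1 (N : ℤ) →
      (∀ x ∈ A, ∀ y ∈ A, ∀ n : ℕ, 1 ≤ n → x - y = h.eval (n : ℤ) → x - y = 0) →
      (A.card : ℝ) ≤ C * (N : ℝ) ^ (1 - c) := by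
  obtain ⟨c, C, hc0, H⟩ := Vale.Agent.P042.main (h := taylor b h) (by rwa [natDegree_taylor])
    (by rwa [leadingCoeff_taylor]) (fun x => by
      rw [taylor_eval, taylor_eval, add_comm x, ← ho, neg_add_eq_sub]) (1 - b).toNat
  refine ⟨c, C, hc0, fun N A hA hav => H N A hA fun x hx y hy n hn hxy => ?_⟩
  rw [taylor_eval] at hxy ⊢
  have h1 : (n : ℤ) + b = ((n + b).toNat : ℕ) := by omega
  rw [← hxy]
  exact hav x hx y hy (n + b).toNat (by omega) (by rw [← h1]; exact hxy)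

end Vale.Agent.Results.P042.Odd
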